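import Vale.Agent.P237.Quant.TailData.N21.tailN21P0Part0
import Vale.Agent.P237.Quant.TailData.N21.tailN21P0Part1

/-!
Tail calibration tailN21P0 in dimension 21. The check. Generated data, checked by the kernel.
-/

set_option maxRecDepth 100000
set_option linter.all false

namespace Vale.Agent.P237.Quant.TailData

open TailCert


/-- The calibration. -/
noncomputable def tailN21P0 : Cfg :=
  tailN21P0Base.withIvals (List.flatten [tailN21P0L0, tailN21P0L1, tailN21P0L2, tailN21P0L3, tailN21P0L4, tailN21P0L5, tailN21P0L6, tailN21P0L7])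

theorem tailN21P0_parts : [tailN21P0L0, tailN21P0L1, tailN21P0L2, tailN21P0L3, tailN21P0L4, tailN21P0L5, tailN21P0L6, tailN21P0L7].Forall fun l => tailN21P0Base.partUsed tailN21P0Used l = true := by
  simp only [List.forall_cons, List.Forall]
  exact ⟨tailN21P0L0_ok, tailN21P0L1_ok, tailN21P0L2_ok, tailN21P0L3_ok, tailN21P0L4_ok, tailN21P0L5_ok, tailN21P0L6_ok, tailN21P0L7_ok⟩

theorem tailN21P0_check : tailN21P0.check = true :=
  Cfg.check_of_parts (by decide +kernel) tailN21P0_parts

end Vale.Agent.P237.Quant.TailData
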