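import Vale.Agent.P237.Quant.TailData.N21.tailN21P3Part0
import Vale.Agent.P237.Quant.TailData.N21.tailN21P3Part1
import Vale.Agent.P237.Quant.TailData.N21.tailN21P3Part2
import Vale.Agent.P237.Quant.TailData.N21.tailN21P3Part3

/-!
Tail calibration tailN21P3 in dimension 21. The check. Generated data, checked by the kernel.
-/

set_option maxRecDepth 100000
set_option linter.all false

namespace Vale.Agent.P237.Quant.TailData

open TailCert


/-- The calibration. -/
noncomputable def tailN21P3 : Cfg :=
  tailN21P3Base.withIvals (List.flatten [tailN21P3L0, tailN21P3L1, tailN21P3L2, tailN21P3L3, tailN21P3L4, tailN21P3L5, tailN21P3L6, tailN21P3L7, tailN21P3L8, tailN21P3L9, tailN21P3L10, tailN21P3L11, tailN21P3L12])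

theorem tailN21P3_parts : [tailN21P3L0, tailN21P3L1, tailN21P3L2, tailN21P3L3, tailN21P3L4, tailN21P3L5, tailN21P3L6, tailN21P3L7, tailN21P3L8, tailN21P3L9, tailN21P3L10, tailN21P3L11, tailN21P3L12].Forall fun l => tailN21P3Base.partUsed tailN21P3Used l = true := by
  simp only [List.forall_cons, List.Forall]
  exact ⟨tailN21P3L0_ok, tailN21P3L1_ok, tailN21P3L2_ok, tailN21P3L3_ok, tailN21P3L4_ok, tailN21P3L5_ok, tailN21P3L6_ok, tailN21P3L7_ok, tailN21P3L8_ok, tailN21P3L9_ok, tailN21P3L10_ok, tailN21P3L11_ok, tailN21P3L12_ok⟩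

theorem tailN21P3_check : tailN21P3.check = true :=
  Cfg.check_of_parts (by decide +kernel) tailN21P3_parts

end Vale.Agent.P237.Quant.TailData
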