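import Vale.Agent.P237.Quant.TailPartsLink
import Vale.Agent.P237.Quant.RowTables
import Vale.Agent.P237.Quant.EnvelopeTableData.N16
import Vale.Agent.P237.Quant.TailData.N21.tailN21P0
import Vale.Agent.P237.Quant.TailData.N21.tailN21P1
import Vale.Agent.P237.Quant.TailData.N21.tailN21P2
import Vale.Agent.P237.Quant.TailData.N21.tailN21P3
import Vale.Agent.P237.Quant.TailData.N21.tailN21N0
import Vale.Agent.P237.Quant.TailData.N21.tailN21N1

/-!
The tail inequalities of the rows of both sides in dimension 21. Generated.
-/

namespace Vale.Agent.P237.Quant

open TailCert TailData

/-- The tail inequalities of `negRow14` in dimension 21. -/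
theorem negRow14_tailAt21 : negRow14.TailAt 20 := by
  intro P hP
  simp only [negRow14, binsOf, List.mem_cons, List.not_mem_nil, or_false] at hP
  rcases hP with rfl | rfl
  · exact tailBin_negParts tailN21N0_check tailN21N0_parts envTable21_check (by decide +kernel)
  · exact tailBin_negParts tailN21N1_check tailN21N1_parts envTable21_check (by decide +kernel)

/-- The tail inequalities of `posRow20` in dimension 21. -/
theorem posRow20_tailAt21 : posRow20.TailAt 20 := by
  intro P hP
  simp only [posRow20, posRowA, posCuts14, posCuts16, binsOf, List.mem_cons, List.not_mem_nil, or_false] at hP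
  rcases hP with rfl | rfl | rfl | rfl
  · exact tailBin_posParts tailN21P0_check tailN21P0_parts envTable21_check (by decide +kernel)
  · exact tailBin_posParts tailN21P1_check tailN21P1_parts envTable21_check (by decide +kernel)
  · exact tailBin_posParts tailN21P2_check tailN21P2_parts envTable21_check (by decide +kernel)
  · exact tailBin_posParts tailN21P3_check tailN21P3_parts envTable21_check (by decide +kernel)

end Vale.Agent.P237.Quant
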